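import Mathlib

/-!
# The walls lemma

Abstract form.  `f a b` plays the role of the determinant of two vectors `z a`, `z b` of a plane
(antisymmetric, nonzero for `a ≠ b`, Grassmann-Pluecker relation).  The number of indices `j` such that all
other vectors are strictly to the left of `z j` equals the number of indices such that all others are strictly
to the right (both numbers are `0` or `1`): an open convex cone of the plane cut out by finitely many half
planes has no wall or exactly two walls.
-/

namespace Vale.Agent.P040.Sph54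

open Finset

variable {ι : Type*}

/-- the hypotheses on the determinant function -/
structure PlaneDet (f : ι → ι → ℝ) : Prop where
  anti : ∀ a b, f a b = - f b a
  ne : ∀ a b, a ≠ b → f a b ≠ 0
  gp : ∀ o a b c, f a c * f o b = f a b * f o c + f b c * f o a

lemma PlaneDet.self {f : ι → ι → ℝ} (h : PlaneDet f) (a : ι) : f a a = 0 := by
  have := h.anti a a
  linarith

lemma PlaneDet.swap {f : ι → ι → ℝ} (h : PlaneDet f) : PlaneDet (fun a b => f b a) where
  anti := fun a b => h.anti b a
  ne := fun a b hab => h.ne b a (Ne.symm hab)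
  gp := by
    intro o a b c
    have h1 := h.gp o a b c
    have e1 := h.anti c a
    have e2 := h.anti b o
    have e3 := h.anti b a
    have e4 := h.anti c o
    have e5 := h.anti c b
    have e6 := h.anti a o
    show f c a * f b o = f b a * f c o + f c b * f a o
    rw [e1, e2, e3, e4, e5, e6]
    linarith

/-- transitivity in the presence of a vector having all others on its left -/
lemma PlaneDet.trans {f : ι → ι → ℝ} (h : PlaneDet f) {o : ι} (ho : ∀ l, l ≠ o → 0 < f o l)
    {a b c : ι} (hab : 0 < f a b) (hbc : 0 < f b c) : 0 < f a c := by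
  have hbo : b ≠ o := by
    rintro rfl
    by_cases hao : a = b
    · subst hao
      rw [h.self] at hab
      exact lt_irrefl _ hab
    · have := ho a hao
      rw [h.anti] at hab
      linarith
  have hco : c ≠ o := by
    rintro rfl
    have := ho b hbo
    rw [h.anti] at hbc
    linarith
  by_cases hao : a = o
  · subst hao
    exact ho c hco
  · have h1 := h.gp o a b c
    have p1 : 0 < f a b * f o c := mul_pos hab (ho c hco)
    have p2 : 0 < f b c * f o a := mul_pos hbc (ho a hao)
    have p3 : 0 < f a c * f o b := by linarith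
    exact (pos_iff_pos_of_mul_pos p3).2 (ho b hbo)

/-- if some vector has all others on its left then some vector has all others on its right -/
lemma PlaneDet.exists_right [Fintype ι] {f : ι → ι → ℝ} (h : PlaneDet f) {o : ι}
    (ho : ∀ l, l ≠ o → 0 < f o l) : ∃ j, ∀ l, l ≠ j → f j l < 0 := by
  classical
  obtain ⟨m, -, hm⟩ := Finset.exists_max_image (univ : Finset ι)
    (fun a => (univ.filter fun l => 0 < f l a).card) ⟨o, mem_univ o⟩
  refine ⟨m, fun l hl => ?_⟩
  by_contra hcon
  have hpos : 0 < f m l := lt_of_le_of_ne (not_lt.1 hcon) (Ne.symm (h.ne m l (Ne.symm hl)))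
  have hsub : (univ.filter fun x => 0 < f x m) ⊂ (univ.filter fun x => 0 < f x l) := by
    rw [Finset.ssubset_iff_of_subset]
    · refine ⟨m, by simp [hpos], ?_⟩
      simp [h.self]
    · intro x hx
      rw [mem_filter] at hx ⊢
      exact ⟨mem_univ _, h.trans ho hx.2 hpos⟩
  have := hm l (mem_univ l)
  have h2 := Finset.card_lt_card hsub
  omega

lemma PlaneDet.left_unique {f : ι → ι → ℝ} (h : PlaneDet f) {a b : ι}
    (ha : ∀ l, l ≠ a → 0 < f a l) (hb : ∀ l, l ≠ b → 0 < f b l) : a = b := by
  by_contra hab
  have h1 := ha b (Ne.symm hab)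
  have h2 := hb a hab
  rw [h.anti] at h2
  linarith

/-- **Walls lemma.** -/
theorem PlaneDet.card_left_eq_card_right [Fintype ι] {f : ι → ι → ℝ} (h : PlaneDet f)
    [DecidablePred fun j => ∀ l, l ≠ j → 0 < f j l] [DecidablePred fun j => ∀ l, l ≠ j → f j l < 0] :
    (univ.filter fun j => ∀ l, l ≠ j → 0 < f j l).card =
      (univ.filter fun j => ∀ l, l ≠ j → f j l < 0).card := by
  have hL : (univ.filter fun j => ∀ l, l ≠ j → 0 < f j l).card ≤ 1 := by
    rw [Finset.card_le_one]
    intro a ha b hb
    rw [mem_filter] at ha hb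
    exact h.left_unique ha.2 hb.2
  have conv : ∀ j, (∀ l, l ≠ j → f j l < 0) ↔ (∀ l, l ≠ j → 0 < f l j) := by
    intro j
    constructor
    · intro hj l hl
      have := hj l hl
      rw [h.anti] at this
      linarith
    · intro hj l hl
      have := hj l hl
      rw [h.anti]
      linarith
  have hR : (univ.filter fun j => ∀ l, l ≠ j → f j l < 0).card ≤ 1 := by
    rw [Finset.card_le_one]
    intro a ha b hb
    rw [mem_filter] at ha hb
    exact h.swap.left_unique ((conv a).1 ha.2) ((conv b).1 hb.2)
  by_cases hne : (univ.filter fun j => ∀ l, l ≠ j → 0 < f j l).Nonempty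
  · obtain ⟨o, ho⟩ := hne
    rw [mem_filter] at ho
    obtain ⟨j, hj⟩ := h.exists_right ho.2
    have h1 : 0 < (univ.filter fun j => ∀ l, l ≠ j → 0 < f j l).card :=
      Finset.card_pos.2 ⟨o, by rw [mem_filter]; exact ho⟩
    have h2 : 0 < (univ.filter fun j => ∀ l, l ≠ j → f j l < 0).card :=
      Finset.card_pos.2 ⟨j, by rw [mem_filter]; exact ⟨mem_univ _, hj⟩⟩
    omega
  · by_cases hne2 : (univ.filter fun j => ∀ l, l ≠ j → f j l < 0).Nonempty
    · exfalso
      obtain ⟨o, ho⟩ := hne2
      rw [mem_filter] at ho
      obtain ⟨j, hj⟩ := h.swap.exists_right ((conv o).1 ho.2)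
      apply hne
      refine ⟨j, ?_⟩
      rw [mem_filter]
      refine ⟨mem_univ _, fun l hl => ?_⟩
      have := hj l hl
      rw [h.anti]
      linarith
    · rw [Finset.not_nonempty_iff_eq_empty] at hne hne2
      rw [hne, hne2]

/-- the total number of walls is even -/
theorem PlaneDet.even_walls [Fintype ι] {f : ι → ι → ℝ} (h : PlaneDet f)
    [DecidablePred fun j => ∀ l, l ≠ j → 0 < f j l] [DecidablePred fun j => ∀ l, l ≠ j → f j l < 0] :
    Even ((univ.filter fun j => ∀ l, l ≠ j → 0 < f j l).card +
      (univ.filter fun j => ∀ l, l ≠ j → f j l < 0).card) := by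
  rw [h.card_left_eq_card_right]
  exact ⟨_, rfl⟩

end Vale.Agent.P040.Sph54
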